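import Crest.Agent.X261.Eqv.Defs2
import Crest.Agent.X261.Ans.Eqv
import Crest.Agent.X261.Ans.Stat

/-!
# X261/Eq7/Ch (helper7): foliation charts of a graded system of relations (`ChStmt`)
-/

set_option autoImplicit false
set_option linter.unusedSectionVars false

open Set Filter Topology Module

namespace Crest.Agent.X261.Eq7

open Crest.Agent.X261.Ans Crest.Agent.X261.Eqv

variable {E : Type} [NormedAddCommGroup E] [NormedSpace ℂ E] [FiniteDimensional ℂ E]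
  {M : Type} [TopologicalSpace M] {A : HA E M} {G : Type} [Group G] [MulAction G M]

/-- the limit relation -/
def relD (Q : GS A G) : RelD A where
  I := Unit
  ne := ⟨()⟩
  R := fun _ => ⋂ k, Q.V k
  an := fun _ => HA.an_iInter isOpen_univ Q.an_V
  diag := fun _ x => mem_iInter.2 fun k => Q.diag k x
  symm := fun _ => ⟨(), fun x y h => mem_iInter.2 fun k => Q.symm k x y (mem_iInter.1 h k)⟩
  comp := fun _ _ => ⟨(), ⋃ k, Q.B k, ⟨Q.B, fun k => ⟨Q.an_B k, Q.ne_B k⟩, Subset.rfl⟩,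
    fun x y z hx hy hz h1 h2 => mem_iInter.2 fun k => Q.comp k x y z
      (fun h => hx (mem_iUnion.2 ⟨_, h⟩)) (fun h => hy (mem_iUnion.2 ⟨_, h⟩))
      (fun h => hz (mem_iUnion.2 ⟨_, h⟩)) (mem_iInter.1 h1 _) (mem_iInter.1 h2 _)⟩

theorem bih (Q : GS A G) (g : G) : HA.Bih (A.prod A) (A.prod A) univ univ
    (fun q => (g • q.1, g • q.2)) (fun q => (g⁻¹ • q.1, g⁻¹ • q.2)) :=
  HA.bih_univ (fun q => ((Q.hol g q.1).comp (HA.hol_fst A A q)).prodMk
      ((Q.hol g q.2).comp (HA.hol_snd A A q)))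
    (fun q => ((Q.hol g⁻¹ q.1).comp (HA.hol_fst A A q)).prodMk
      ((Q.hol g⁻¹ q.2).comp (HA.hol_snd A A q)))
    (fun q => by simp only [inv_smul_smul]) (fun q => by simp only [smul_inv_smul])

theorem inv' (Q : GS A G) {k : ℕ} (g : G) {x y : M} (h : (g • x, g • y) ∈ Q.V k) :
    (x, y) ∈ Q.V k := by
  have := Q.inv k g⁻¹ _ _ h
  rwa [inv_smul_smul, inv_smul_smul] at this

/-- the system is stationary near the diagonal -/
theorem exists_k0 (Q : GS A G) :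
    ∃ k, ∀ x : M, ∀ᶠ q in 𝓝 (x, x), q ∈ Q.V k → ∀ i, q ∈ Q.V i := by
  obtain ⟨k, hk⟩ := HA.stat_anti (A := A.prod A) isOpen_univ
    (Q.K_cpt.image (continuous_id.prodMk continuous_id)) (subset_univ _) Q.an_V Q.V_anti
  refine ⟨k, fun x => ?_⟩
  obtain ⟨g, hg⟩ := Q.K_cov x
  have h1 := (nhds_le_nhdsSet (mem_image_of_mem _ hg)) hk
  filter_upwards [((bih Q g).hg (x, x) (mem_univ _)).1.eventually h1] with q hq h i
  exact inv' Q g (hq (Q.inv k g _ _ h) i)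

theorem chStmt : ChStmt := by
  intro E _ _ _ M _ _ _ A _ G _ _ Q
  obtain ⟨P⟩ := eqv (relD Q)
  obtain ⟨k0, hk0⟩ := exists_k0 Q
  have hYR : ∀ q ∈ P.Y, ∀ k, q ∈ Q.V k := by
    obtain ⟨c, hc⟩ := P.sub
    exact fun q hq => mem_iInter.1 (hc hq)
  have hY : ∀ (g : G), (fun q : M × M => (g⁻¹ • q.1, g⁻¹ • q.2)) ⁻¹' P.Y ⊆ P.Y := fun g =>
    P.max _ _ () ((bih Q g).irr P.irr) (fun x => P.diag _)
      fun q hq => mem_iInter.2 fun k => inv' Q g⁻¹ (hYR _ hq k)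
  have hY' : ∀ (g : G), (fun q : M × M => (g⁻¹ • q.1, g⁻¹ • q.2)) ⁻¹' P.Y = P.Y := fun g =>
    (hY g).antisymm fun q hq => hY g⁻¹ (by
      simpa only [mem_preimage, inv_inv, smul_inv_smul] using hq)
  let B1 : Set M := {x | ¬ (A.prod A).Reg P.Y (finrank ℂ E + P.r) (x, x)}
  let B2 : Set M := {x | ¬ ∀ᶠ q in 𝓝 (x, x), q ∈ (relD Q).R () → q ∈ P.Y}
  let S : Set M := (B1 ∪ B2 ∪ Q.B (k0 + 20))ᶜ
  have hS : A.An univ Sᶜ := by
    rw [compl_compl]
    exact (P.an_bad.union (P.an_loc ())).union (Q.an_B _)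
  have hSo : IsOpen S := isClosed_compl_iff.1 hS.isClosed
  have h1 : ∀ x ∈ S, (A.prod A).Reg P.Y (finrank ℂ E + P.r) (x, x) :=
    fun x hx => not_not.1 fun h => hx (Or.inl (Or.inl h))
  have h2 : ∀ x ∈ S, ∀ᶠ q in 𝓝 (x, x), q ∈ (relD Q).R () → q ∈ P.Y :=
    fun x hx => not_not.1 fun h => hx (Or.inl (Or.inr h))
  have h3 : ∀ x ∈ S, x ∉ Q.B (k0 + 20) := fun x hx h => hx (Or.inr h)
  have key : ∀ x ∈ S, ∃ (U : Set M) (π : M → Fin P.p → ℂ), IsOpen U ∧ x ∈ U ∧ U ⊆ S ∧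
      (∀ y ∈ U, A.Subm (HA.self (Fin P.p → ℂ)) π y) ∧
      (∀ y ∈ U, ∀ z ∈ U, (y, z) ∈ Q.V k0 → π y = π z) ∧
      ∀ y ∈ U, ∀ z ∈ U, π y = π z → ∀ k, (y, z) ∈ Q.V k := by
    intro x hx
    obtain ⟨i, U, π, a1, a2, a3, a4, a5, -⟩ := P.fol x (h1 x hx)
    have a6 := (hk0 x).and (h2 x hx)
    rw [nhds_prod_eq] at a6
    obtain ⟨W, a7, a8⟩ := mem_prod_self_iff.1 a6
    refine ⟨U ∩ S ∩ interior W, fun y => π (A.e i y), (a1.inter hSo).inter isOpen_interior,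
      ⟨⟨a2, hx⟩, mem_interior_iff_mem_nhds.2 a7⟩, fun y hy => hy.1.2, fun y hy =>
      (HA.self_subm_iff.2 (a4 y hy.1.1)).comp (HA.subm_chart (a3 hy.1.1)), fun y hy z hz h => ?_,
      fun y hy z hz h => hYR _ ((a5 y hy.1.1 z hz.1.1).2 h)⟩
    have a9 := a8 (a := (y, z)) ⟨interior_subset hy.2, interior_subset hz.2⟩
    exact (a5 y hy.1.1 z hz.1.1).1 (a9.2 (mem_iInter.2 (a9.1 h)))
  choose! U π k1 k2 k3 k4 k5 k6 using key
  refine ⟨{ p := P.p, k0 := k0, S := S, an_S := hS, ne := ?_, sinv := fun g x hx => ?_,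
            S_B := h3, U := U, π := π, U_opn := k1, U_mem := k2, U_sub := k3, subm := k4,
            eq_of := k5, of_eq := k6 }⟩
  · refine nonempty_compl.2 (HA.Cov.ne_univ (A := A) (((P.an_bad.cov_of_ne ?_).union
      ((P.an_loc ()).cov_of_ne ?_)).union ((Q.an_B _).cov_of_ne (Q.ne_B _))))
    · obtain ⟨x, hx⟩ := P.ne_good
      exact fun h => (eq_univ_iff_forall.1 h x) hx
    · obtain ⟨x, hx⟩ := P.ne_loc ()
      exact fun h => (eq_univ_iff_forall.1 h x) hx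
  · rintro ((h | h) | h)
    · exact h (hY' g ▸ (bih Q g).reg (mem_univ (x, x)) (h1 x hx))
    · apply h
      have e : ((g⁻¹ • g • x, g⁻¹ • g • x) : M × M) = (x, x) := by simp only [inv_smul_smul]
      filter_upwards [((bih Q g).hf (g • x, g • x) (mem_univ _)).1.eventually
        (e.symm ▸ h2 x hx)] with q hq hR
      exact hY g (hq (mem_iInter.2 fun k => Q.inv k g⁻¹ _ _ (mem_iInter.1 hR k)))
    · have := Q.B_inv _ g⁻¹ _ h
      rw [inv_smul_smul] at this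
      exact h3 x hx this

end Crest.Agent.X261.Eq7
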